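import Vale.Agent.P146.H317.ExBridge

/-!
# P146: exclusion of the big root with weights which do not see the fourth cumulant

The tested row equation is used with the positive weights `w2f (Q2)` at the coarse set `K2` and
`w1f (Q1) (Q2)` at the fine set `K1` only, each of them from one side. No weight depends on the
conditional fourth cumulant, and the numbers `τ1`, `τ2` may have any sign.
-/

open MeasureTheory

namespace Vale.Agent.P146.H578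

open Vale.Agent.P146.H646 Vale.Agent.P146.H615 Vale.Agent.P146.H317

set_option linter.unusedSectionVars false

/-! ### the ramp and the weight `ramp / q ^ 3` -/

/-- `0` up to `s`, `1` from `t` on, linear in between. -/
noncomputable def rmp (s t q : ℝ) : ℝ := max 0 (min 1 ((q - s) / (t - s)))

lemma rmp_nonneg (s t q : ℝ) : 0 ≤ rmp s t q := le_max_left _ _

lemma rmp_le_one (s t q : ℝ) : rmp s t q ≤ 1 := max_le zero_le_one (min_le_left _ _)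

lemma rmp_zero {s t q : ℝ} (h : s < t) (hq : q ≤ s) : rmp s t q = 0 := by
  refine max_eq_left ((min_le_right _ _).trans ?_)
  exact div_nonpos_of_nonpos_of_nonneg (by linarith) (by linarith)

lemma rmp_one {s t q : ℝ} (h : s < t) (hq : t ≤ q) : rmp s t q = 1 := by
  have h1 : 1 ≤ (q - s) / (t - s) := by
    rw [le_div_iff₀ (by linarith)]; linarith
  unfold rmp
  rw [min_eq_left h1]
  exact max_eq_right zero_le_one

lemma rmp_lip {s t : ℝ} (h : s < t) (q q' : ℝ) :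
    |rmp s t q - rmp s t q'| ≤ 1 / (t - s) * |q - q'| := by
  unfold rmp
  refine (abs_max_sub_max_le_max _ _ _ _).trans ?_
  rw [sub_self, abs_zero]
  have h0 : 0 ≤ 1 / (t - s) * |q - q'| :=
    mul_nonneg (div_nonneg zero_le_one (by linarith)) (abs_nonneg _)
  refine max_le h0 ((abs_min_sub_min_le_max _ _ _ _).trans ?_)
  rw [sub_self, abs_zero]
  refine max_le h0 (le_of_eq ?_)
  have e : (q - s) / (t - s) - (q' - s) / (t - s) = 1 / (t - s) * (q - q') := by ring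
  rw [e, abs_mul, abs_of_nonneg (div_nonneg zero_le_one (by linarith : (0:ℝ) ≤ t - s))]

lemma meas_rmp (s t : ℝ) : Measurable (rmp s t) :=
  measurable_const.max (measurable_const.min ((measurable_id.sub_const s).div_const _))

/-- the weight -/
noncomputable def cw (s t q : ℝ) : ℝ := rmp s t q / q ^ 3

lemma cw_zero {s t q : ℝ} (h : s < t) (hq : q ≤ s) : cw s t q = 0 := by
  unfold cw; rw [rmp_zero h hq, zero_div]

lemma cw_nonneg {s t : ℝ} (hs : 0 < s) (h : s < t) (q : ℝ) : 0 ≤ cw s t q := by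
  rcases le_or_gt q s with hq | hq
  · rw [cw_zero h hq]
  · exact div_nonneg (rmp_nonneg _ _ _) (pow_nonneg (by linarith) 3)

lemma cw_le {s t : ℝ} (hs : 0 < s) (h : s < t) (q : ℝ) : cw s t q ≤ 1 / s ^ 3 := by
  rcases le_or_gt q s with hq | hq
  · rw [cw_zero h hq]; positivity
  · unfold cw
    have h1 : s ^ 3 ≤ q ^ 3 := pow_le_pow_left₀ hs.le hq.le 3
    exact div_le_div₀ zero_le_one (rmp_le_one _ _ _) (by positivity) h1

lemma cw_mul {s t q : ℝ} (hs : 0 < s) (h : s < t) : cw s t q * q ^ 3 = rmp s t q := by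
  rcases le_or_gt q s with hq | hq
  · rw [cw_zero h hq, rmp_zero h hq, zero_mul]
  · unfold cw
    have hq0 : 0 < q := by linarith
    exact div_mul_cancel₀ _ (pow_pos hq0 3).ne'

lemma meas_cw (s t : ℝ) : Measurable (cw s t) :=
  (meas_rmp s t).div (measurable_id.pow_const 3)

lemma cw_lip_aux {s t q q' : ℝ} (hs : 0 < s) (h : s < t) (hqq : q ≤ q') :
    |cw s t q - cw s t q'| ≤ (1 / (t - s) / s ^ 3 + 3 / s ^ 4) * |q - q'| := by
  have hts : 0 < t - s := by linarith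
  have hc : 0 ≤ 1 / (t - s) / s ^ 3 + 3 / s ^ 4 := by positivity
  rcases le_or_gt q' s with hq' | hq'
  · rw [cw_zero h hq', cw_zero h (hqq.trans hq'), sub_self, abs_zero]
    exact mul_nonneg hc (abs_nonneg _)
  · have hq'0 : 0 < q' := by linarith
    have h3 : s ^ 3 ≤ q' ^ 3 := pow_le_pow_left₀ hs.le hq'.le 3
    have e : cw s t q - cw s t q' =
        (rmp s t q - rmp s t q') / q' ^ 3 + rmp s t q * (1 / q ^ 3 - 1 / q' ^ 3) := by
      unfold cw; ring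
    have t1 : |(rmp s t q - rmp s t q') / q' ^ 3| ≤ 1 / (t - s) / s ^ 3 * |q - q'| := by
      rw [abs_div, abs_of_pos (by positivity : (0:ℝ) < q' ^ 3)]
      calc |rmp s t q - rmp s t q'| / q' ^ 3 ≤ (1 / (t - s) * |q - q'|) / s ^ 3 :=
            div_le_div₀ (by positivity) (rmp_lip h q q') (by positivity) h3
        _ = 1 / (t - s) / s ^ 3 * |q - q'| := by ring
    have t2 : |rmp s t q * (1 / q ^ 3 - 1 / q' ^ 3)| ≤ 3 / s ^ 4 * |q - q'| := by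
      rcases le_or_gt q s with hq | hq
      · rw [rmp_zero h hq, zero_mul, abs_zero]; positivity
      · have hq0 : 0 < q := by linarith
        have h1 : 1 / q ≤ 1 / s := one_div_le_one_div_of_le hs hq.le
        have h2 : 1 / q' ≤ 1 / s := one_div_le_one_div_of_le hs hq'.le
        have h1' : 0 < 1 / q := by positivity
        have h2' : 0 < 1 / q' := by positivity
        set u := 1 / q with hu
        set u' := 1 / q' with hu'
        set m := 1 / s with hm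
        have hm0 : 0 < m := by positivity
        have e1 : 1 / q ^ 3 - 1 / q' ^ 3 = (u - u') * (u ^ 2 + u * u' + u' ^ 2) := by
          rw [hu, hu']; ring
        have e2 : u - u' = (q' - q) * (u * u') := by
          rw [hu, hu']; field_simp
        have hqq' : 0 ≤ q' - q := by linarith
        have e3 : 0 ≤ 1 / q ^ 3 - 1 / q' ^ 3 := by
          rw [e1, e2]; positivity
        rw [abs_mul, abs_of_nonneg (rmp_nonneg _ _ _), abs_of_nonneg e3, e1, e2]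
        have e4 : |q - q'| = q' - q := by rw [abs_sub_comm, abs_of_nonneg hqq']
        have e5 : 3 / s ^ 4 = 3 * m ^ 4 := by rw [hm]; ring
        rw [e4, e5]
        have k1 : u * u' ≤ m * m := mul_le_mul h1 h2 h2'.le hm0.le
        have k2 : u ^ 2 ≤ m ^ 2 := pow_le_pow_left₀ h1'.le h1 2
        have k3 : u' ^ 2 ≤ m ^ 2 := pow_le_pow_left₀ h2'.le h2 2
        have k4 : u ^ 2 + u * u' + u' ^ 2 ≤ 3 * m ^ 2 := by nlinarith
        have k5 : (u * u') * (u ^ 2 + u * u' + u' ^ 2) ≤ (m * m) * (3 * m ^ 2) :=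
          mul_le_mul k1 k4 (by positivity) (by positivity)
        calc rmp s t q * ((q' - q) * (u * u') * (u ^ 2 + u * u' + u' ^ 2))
            ≤ 1 * ((q' - q) * (u * u') * (u ^ 2 + u * u' + u' ^ 2)) :=
              mul_le_mul_of_nonneg_right (rmp_le_one _ _ _) (by positivity)
          _ = (q' - q) * ((u * u') * (u ^ 2 + u * u' + u' ^ 2)) := by ring
          _ ≤ (q' - q) * ((m * m) * (3 * m ^ 2)) := mul_le_mul_of_nonneg_left k5 hqq'
          _ = 3 * m ^ 4 * (q' - q) := by ring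
    rw [e, add_mul]
    exact (abs_add_le _ _).trans (add_le_add t1 t2)

/-- the weight is Lipschitz. -/
lemma cw_lip {s t : ℝ} (hs : 0 < s) (h : s < t) (q q' : ℝ) :
    |cw s t q - cw s t q'| ≤ (1 / (t - s) / s ^ 3 + 3 / s ^ 4) * |q - q'| := by
  rcases le_total q q' with hq | hq
  · exact cw_lip_aux hs h hq
  · rw [abs_sub_comm, abs_sub_comm q]
    exact cw_lip_aux hs h hq

/-- the weight at the coarse set -/
noncomputable def w2f (L q2 : ℝ) : ℝ := cw L (2 * L) q2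

/-- the weight at the fine set -/
noncomputable def w1f (L q1 q2 : ℝ) : ℝ := rmp L (2 * L) q2 * cw (L / 4) (L / 2) q1

lemma w2f_nonneg {L : ℝ} (hL : 0 < L) (q : ℝ) : 0 ≤ w2f L q := cw_nonneg hL (by linarith) q

lemma w2f_le {L : ℝ} (hL : 0 < L) (q : ℝ) : w2f L q ≤ 1 / L ^ 3 := cw_le hL (by linarith) q

lemma w2f_lip {L : ℝ} (hL : 0 < L) (q q' : ℝ) :
    |w2f L q - w2f L q'| ≤ 4 / L ^ 4 * |q - q'| := by
  have h := cw_lip hL (by linarith : L < 2 * L) q q'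
  have e : 1 / (2 * L - L) / L ^ 3 + 3 / L ^ 4 = 4 / L ^ 4 := by
    have : 2 * L - L = L := by ring
    rw [this]
    have hL' : L ≠ 0 := hL.ne'
    field_simp
    norm_num
  rwa [e] at h

lemma w1f_nonneg {L : ℝ} (hL : 0 < L) (q1 q2 : ℝ) : 0 ≤ w1f L q1 q2 :=
  mul_nonneg (rmp_nonneg _ _ _) (cw_nonneg (by linarith) (by linarith) _)

lemma w1f_le {L : ℝ} (hL : 0 < L) (q1 q2 : ℝ) : w1f L q1 q2 ≤ 64 / L ^ 3 := by
  have h1 := cw_le (by linarith : 0 < L / 4) (by linarith : L / 4 < L / 2) q1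
  have h0 := cw_nonneg (by linarith : 0 < L / 4) (by linarith : L / 4 < L / 2) q1
  have e : 1 / (L / 4) ^ 3 = 64 / L ^ 3 := by field_simp; norm_num
  unfold w1f
  calc rmp L (2 * L) q2 * cw (L / 4) (L / 2) q1 ≤ 1 * cw (L / 4) (L / 2) q1 :=
        mul_le_mul_of_nonneg_right (rmp_le_one _ _ _) h0
    _ ≤ 64 / L ^ 3 := by rw [one_mul, ← e]; exact h1

lemma w1f_lip {L : ℝ} (hL : 0 < L) (q1 q2 q1' q2' : ℝ) :
    |w1f L q1 q2 - w1f L q1' q2'| ≤ 1024 / L ^ 4 * (|q1 - q1'| + |q2 - q2'|) := by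
  have h1 := cw_lip (by linarith : 0 < L / 4) (by linarith : L / 4 < L / 2) q1 q1'
  have h0 := cw_nonneg (by linarith : 0 < L / 4) (by linarith : L / 4 < L / 2) q1'
  have hle := cw_le (by linarith : 0 < L / 4) (by linarith : L / 4 < L / 2) q1'
  have h2 := rmp_lip (by linarith : L < 2 * L) q2 q2'
  have e1 : 1 / (L / 2 - L / 4) / (L / 4) ^ 3 + 3 / (L / 4) ^ 4 = 1024 / L ^ 4 := by
    have : L / 2 - L / 4 = L / 4 := by ring
    rw [this]; field_simp; norm_num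
  have e2 : 1 / (L / 4) ^ 3 = 64 / L ^ 3 := by field_simp; norm_num
  have e3 : 1 / (2 * L - L) = 1 / L := by congr 1; ring
  rw [e1] at h1
  rw [e2] at hle
  rw [e3] at h2
  have e : w1f L q1 q2 - w1f L q1' q2' =
      rmp L (2 * L) q2 * (cw (L / 4) (L / 2) q1 - cw (L / 4) (L / 2) q1') +
        (rmp L (2 * L) q2 - rmp L (2 * L) q2') * cw (L / 4) (L / 2) q1' := by
    unfold w1f; ring
  rw [e]
  refine (abs_add_le _ _).trans ?_
  rw [abs_mul, abs_mul, abs_of_nonneg (rmp_nonneg _ _ _), abs_of_nonneg h0]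
  have k1 : rmp L (2 * L) q2 * |cw (L / 4) (L / 2) q1 - cw (L / 4) (L / 2) q1'| ≤
      1 * (1024 / L ^ 4 * |q1 - q1'|) :=
    mul_le_mul (rmp_le_one _ _ _) h1 (abs_nonneg _) zero_le_one
  have k2 : |rmp L (2 * L) q2 - rmp L (2 * L) q2'| * cw (L / 4) (L / 2) q1' ≤
      (1 / L * |q2 - q2'|) * (64 / L ^ 3) :=
    mul_le_mul h2 hle h0 (by positivity)
  have k3 : (1 / L * |q2 - q2'|) * (64 / L ^ 3) = 64 / L ^ 4 * |q2 - q2'| := by
    field_simp
  have k4 : 64 / L ^ 4 * |q2 - q2'| ≤ 1024 / L ^ 4 * |q2 - q2'| :=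
    mul_le_mul_of_nonneg_right (div_le_div_of_nonneg_right (by norm_num) (by positivity))
      (abs_nonneg _)
  rw [mul_add]
  linarith

/-! ### the pointwise inequality -/

lemma h_nonneg {a τ v v' N m p : ℝ} (hN : -τ ≤ N) (hN0 : 0 ≤ N) (hv : 0 ≤ v)
    (hreg : 2 * N * m + 3 * v * m ^ 2 ≤ a) (hp : 0 < p) (hpm : p ≤ m) (hv' : v' ≤ v) :
    0 ≤ a * p + τ * p ^ 2 - v' * p ^ 3 := by
  have hm : 0 < m := hp.trans_le hpm
  have h3 : v' * p ^ 2 ≤ v * m ^ 2 :=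
    (mul_le_mul_of_nonneg_right hv' (by positivity)).trans
      (mul_le_mul_of_nonneg_left (pow_le_pow_left₀ hp.le hpm 2) hv)
  have h4 : N * p ≤ N * m := mul_le_mul_of_nonneg_left hpm hN0
  have h5 : 0 ≤ N * m := mul_nonneg hN0 hm.le
  have h6 : 0 ≤ v * m ^ 2 := mul_nonneg hv (by positivity)
  have h7 : -N * p ≤ τ * p := mul_le_mul_of_nonneg_right (by linarith) hp.le
  have h8 : 0 ≤ a + τ * p - v' * p ^ 2 := by linarith
  calc 0 ≤ p * (a + τ * p - v' * p ^ 2) := mul_nonneg hp.le h8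
    _ = _ := by ring

lemma h_mono {a τ v N m r r' : ℝ} (hN : -τ ≤ N) (hN0 : 0 ≤ N) (hv : 0 ≤ v)
    (hreg : 2 * N * m + 3 * v * m ^ 2 ≤ a) (hr : 0 < r) (hrr : r ≤ r') (hrm : r' ≤ m) :
    a * r + τ * r ^ 2 - v * r ^ 3 ≤ a * r' + τ * r' ^ 2 - v * r' ^ 3 := by
  have hr' : 0 < r' := hr.trans_le hrr
  have hm : 0 < m := hr'.trans_le hrm
  have hrm0 : r ≤ m := hrr.trans hrm
  have g1 : -N * (r + r') ≤ τ * (r + r') :=
    mul_le_mul_of_nonneg_right (by linarith) (by linarith)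
  have g2 : N * (r + r') ≤ N * (m + m) :=
    mul_le_mul_of_nonneg_left (add_le_add hrm0 hrm) hN0
  have g3 : r ^ 2 ≤ m ^ 2 := pow_le_pow_left₀ hr.le hrm0 2
  have g4 : r' ^ 2 ≤ m ^ 2 := pow_le_pow_left₀ hr'.le hrm 2
  have g5 : r * r' ≤ m ^ 2 := by
    rw [pow_two]; exact mul_le_mul hrm0 hrm hr'.le hm.le
  have g6 : v * (r ^ 2 + r * r' + r' ^ 2) ≤ v * (3 * m ^ 2) :=
    mul_le_mul_of_nonneg_left (by linarith) hv
  have f0 : 0 ≤ a + τ * (r + r') - v * (r ^ 2 + r * r' + r' ^ 2) := by linarith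
  have f1 := mul_nonneg (sub_nonneg.2 hrr) f0
  have e : (r' - r) * (a + τ * (r + r') - v * (r ^ 2 + r * r' + r' ^ 2)) =
      (a * r' + τ * r' ^ 2 - v * r' ^ 3) - (a * r + τ * r ^ 2 - v * r ^ 3) := by ring
  linarith

lemma h_shift {a τ v ξ p : ℝ} (ha : 0 ≤ a) (hv : 0 ≤ v) (hξ0 : 0 ≤ ξ) (hξ : ξ ≤ 1 / 2)
    (hp : 0 < p) :
    a * (p / (1 - ξ)) + τ * (p / (1 - ξ)) ^ 2 - v * (p / (1 - ξ)) ^ 3 ≤
      a * p + τ * p ^ 2 - v * p ^ 3 + (2 * a * ξ * p + 6 * ξ * max τ 0 * p ^ 2) := by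
  have hξ1 : 0 < 1 - ξ := by linarith
  set r := p / (1 - ξ) with hr
  have hr0 : 0 < r := div_pos hp hξ1
  have hpr : p ≤ r := by
    rw [hr, le_div_iff₀ hξ1]
    have := mul_nonneg hp.le hξ0
    linarith
  have q1 : r ≤ p * (1 + 2 * ξ) := by
    rw [hr, div_le_iff₀ hξ1]
    have : 0 ≤ p * (ξ * (1 - 2 * ξ)) := mul_nonneg hp.le (mul_nonneg hξ0 (by linarith))
    have e : p * (1 + 2 * ξ) * (1 - ξ) = p + p * (ξ * (1 - 2 * ξ)) := by ring
    linarith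
  have q2 : r ^ 2 ≤ p ^ 2 * (1 + 6 * ξ) := by
    have h1 : r ^ 2 ≤ (p * (1 + 2 * ξ)) ^ 2 := pow_le_pow_left₀ hr0.le q1 2
    have h3 : 0 ≤ p ^ 2 * (ξ * (1 - 2 * ξ)) :=
      mul_nonneg (by positivity) (mul_nonneg hξ0 (by linarith))
    have e : (p * (1 + 2 * ξ)) ^ 2 = p ^ 2 * (1 + 6 * ξ) - 2 * (p ^ 2 * (ξ * (1 - 2 * ξ))) := by
      ring
    linarith
  have q3 : p ^ 3 ≤ r ^ 3 := pow_le_pow_left₀ hp.le hpr 3
  have q4 : p ^ 2 ≤ r ^ 2 := pow_le_pow_left₀ hp.le hpr 2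
  have f1 : a * r ≤ a * (p * (1 + 2 * ξ)) := mul_le_mul_of_nonneg_left q1 ha
  have f3 : v * p ^ 3 ≤ v * r ^ 3 := mul_le_mul_of_nonneg_left q3 hv
  have f2 : τ * r ^ 2 ≤ τ * p ^ 2 + 6 * ξ * max τ 0 * p ^ 2 := by
    rcases le_total 0 τ with h | h
    · rw [max_eq_left h]
      have := mul_le_mul_of_nonneg_left q2 h
      have e : τ * (p ^ 2 * (1 + 6 * ξ)) = τ * p ^ 2 + 6 * ξ * τ * p ^ 2 := by ring
      linarith
    · rw [max_eq_right h]
      have := mul_le_mul_of_nonpos_left q4 h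
      linarith
  have e : a * (p * (1 + 2 * ξ)) = a * p + 2 * a * ξ * p := by ring
  linarith

lemma bad_le {a τ v L q1 q2 : ℝ} (ha : 0 ≤ a) (hv : 0 ≤ v) (hL : 0 < L) :
    w1f L q1 q2 * (a * q1 ^ 2 + τ * q1 - v) ≤ 4 * a / L + 16 * max τ 0 / L ^ 2 := by
  set T := max τ 0 with hT
  have hT0 : 0 ≤ T := le_max_right _ _
  have hTτ : τ ≤ T := le_max_left _ _
  have hc0 : 0 ≤ 4 * a / L + 16 * T / L ^ 2 := by positivity
  rcases le_or_gt q1 (L / 4) with h1 | h1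
  · have : w1f L q1 q2 = 0 := by
      unfold w1f; rw [cw_zero (by linarith) h1, mul_zero]
    rw [this, zero_mul]; exact hc0
  · have hq1 : 0 < q1 := by linarith
    have hr4 : 1 / q1 ≤ 4 / L := by
      calc 1 / q1 ≤ 1 / (L / 4) := one_div_le_one_div_of_le (by linarith) h1.le
        _ = 4 / L := by field_simp
    have e : w1f L q1 q2 * (a * q1 ^ 2 + τ * q1 - v) =
        (rmp L (2 * L) q2 * rmp (L / 4) (L / 2) q1) *
          (a * (1 / q1) + τ * (1 / q1) ^ 2 - v * (1 / q1) ^ 3) := by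
      unfold w1f cw
      field_simp
    rw [e]
    have hr0 : 0 < 1 / q1 := by positivity
    set r := 1 / q1 with hr
    have z0 := rmp_nonneg (L / 4) (L / 2) q1
    have z1 := rmp_le_one (L / 4) (L / 2) q1
    have x0 := rmp_nonneg L (2 * L) q2
    have x1 := rmp_le_one L (2 * L) q2
    have hXZ : rmp L (2 * L) q2 * rmp (L / 4) (L / 2) q1 ≤ 1 := by
      calc _ ≤ 1 * 1 := mul_le_mul x1 z1 z0 zero_le_one
        _ = 1 := one_mul 1
    have hXZ0 : 0 ≤ rmp L (2 * L) q2 * rmp (L / 4) (L / 2) q1 := mul_nonneg x0 z0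
    have b1 : a * r + τ * r ^ 2 - v * r ^ 3 ≤ 4 * a / L + 16 * T / L ^ 2 := by
      have f1 : a * r ≤ a * (4 / L) := mul_le_mul_of_nonneg_left hr4 ha
      have f2 : τ * r ^ 2 ≤ T * r ^ 2 := mul_le_mul_of_nonneg_right hTτ (by positivity)
      have f3 : T * r ^ 2 ≤ T * (4 / L) ^ 2 :=
        mul_le_mul_of_nonneg_left (pow_le_pow_left₀ hr0.le hr4 2) hT0
      have f4 : 0 ≤ v * r ^ 3 := by positivity
      have f5 : a * (4 / L) = 4 * a / L := by ring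
      have f6 : T * (4 / L) ^ 2 = 16 * T / L ^ 2 := by ring
      linarith
    calc _ ≤ (rmp L (2 * L) q2 * rmp (L / 4) (L / 2) q1) * (4 * a / L + 16 * T / L ^ 2) :=
          mul_le_mul_of_nonneg_left b1 hXZ0
      _ ≤ 1 * (4 * a / L + 16 * T / L ^ 2) := mul_le_mul_of_nonneg_right hXZ hc0
      _ = _ := one_mul _

/-- off the exceptional event. -/
lemma good_le {a τ1 τ2 v1 v2 L ξ U g q1 q2 : ℝ} (ha : 0 ≤ a) (hv2 : 0 ≤ v2) (hL : 0 < L)
    (hU0 : 0 < U) (hξ0 : 0 ≤ ξ) (hξ : ξ ≤ 1 / 2) (hτ : τ1 ≤ τ2) (hv12 : v2 ≤ v1)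
    (hreg : 2 * max (-τ1) 0 * ((1 - ξ) * L) + 3 * v1 ≤ a * ((1 - ξ) * L) ^ 2)
    (hgap : g ≤ (τ2 - τ1) / U ^ 2 + (v1 - v2) / U ^ 3 - 2 * a * ξ / L
      - 6 * ξ * max τ1 0 / L ^ 2) (h2 : L < q2) (hgood : (1 - ξ) * q2 ≤ q1) :
    (q2 ≤ U → a * (1 / q1) + τ1 * (1 / q1) ^ 2 - v1 * (1 / q1) ^ 3 + g ≤
      a * (1 / q2) + τ2 * (1 / q2) ^ 2 - v2 * (1 / q2) ^ 3) ∧
    a * (1 / q1) + τ1 * (1 / q1) ^ 2 - v1 * (1 / q1) ^ 3 ≤
      a * (1 / q2) + τ2 * (1 / q2) ^ 2 - v2 * (1 / q2) ^ 3 +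
        (2 * a * ξ / L + 6 * ξ * max τ1 0 / L ^ 2) ∧
    0 ≤ a * (1 / q2) + τ2 * (1 / q2) ^ 2 - v2 * (1 / q2) ^ 3 := by
  set T := max τ1 0 with hT
  set N := max (-τ1) 0 with hN
  have hT0 : 0 ≤ T := le_max_right _ _
  have hN0 : 0 ≤ N := le_max_right _ _
  have hNτ : -τ1 ≤ N := le_max_left _ _
  have hv1 : 0 ≤ v1 := hv2.trans hv12
  have hq2 : 0 < q2 := by linarith
  have hξ1 : 0 < 1 - ξ := by linarith
  have hq1 : 0 < q1 := lt_of_lt_of_le (mul_pos hξ1 hq2) hgood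
  set ℓ := (1 - ξ) * L with hℓ
  have hℓ0 : 0 < ℓ := mul_pos hξ1 hL
  have hℓL : ℓ ≤ L := by
    have := mul_nonneg hξ0 hL.le
    rw [hℓ]; linarith
  set m := 1 / ℓ with hm
  have hm0 : 0 < m := by positivity
  have hmℓ : m * ℓ = 1 := by rw [hm]; field_simp
  have hreg' : 2 * N * m + 3 * v1 * m ^ 2 ≤ a := by
    have h := mul_le_mul_of_nonneg_right hreg (by positivity : (0:ℝ) ≤ m ^ 2)
    have e1 : (2 * N * ℓ + 3 * v1) * m ^ 2 = 2 * N * m * (m * ℓ) + 3 * v1 * m ^ 2 := by ring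
    have e2 : a * ℓ ^ 2 * m ^ 2 = a * (m * ℓ) ^ 2 := by ring
    rw [e1, e2, hmℓ] at h
    linarith
  set p := 1 / q2 with hp
  have hp0 : 0 < p := by positivity
  have hpL : p ≤ 1 / L := one_div_le_one_div_of_le hL h2.le
  have hpm : p ≤ m := one_div_le_one_div_of_le hℓ0 (hℓL.trans h2.le)
  set r := 1 / q1 with hr
  have hr0 : 0 < r := by positivity
  have hr'e : p / (1 - ξ) = 1 / ((1 - ξ) * q2) := by
    rw [hp, div_div, mul_comm q2]
  have hrr' : r ≤ p / (1 - ξ) := by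
    rw [hr'e]
    exact one_div_le_one_div_of_le (by positivity) hgood
  have hr'm : p / (1 - ξ) ≤ m := by
    rw [hr'e]
    exact one_div_le_one_div_of_le (by positivity) (mul_le_mul_of_nonneg_left h2.le hξ1.le)
  have m1 := h_mono hNτ hN0 hv1 hreg' hr0 hrr' hr'm
  have m2 := h_shift (τ := τ1) ha hv1 hξ0 hξ hp0
  have hpos := h_nonneg (τ := τ2) (v' := v2) (by linarith : -τ2 ≤ N) hN0 hv1 hreg' hp0 hpm hv12
  have hpL2 : p ^ 2 ≤ 1 / L ^ 2 := by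
    calc p ^ 2 ≤ (1 / L) ^ 2 := pow_le_pow_left₀ hp0.le hpL 2
      _ = 1 / L ^ 2 := by rw [one_div_pow]
  have l1 : 2 * a * ξ * p ≤ 2 * a * ξ / L := by
    calc 2 * a * ξ * p ≤ 2 * a * ξ * (1 / L) := mul_le_mul_of_nonneg_left hpL (by positivity)
      _ = _ := by ring
  have l2 : 6 * ξ * T * p ^ 2 ≤ 6 * ξ * T / L ^ 2 := by
    calc 6 * ξ * T * p ^ 2 ≤ 6 * ξ * T * (1 / L ^ 2) :=
          mul_le_mul_of_nonneg_left hpL2 (by positivity)
      _ = _ := by ring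
  have hd1 : 0 ≤ (τ2 - τ1) * p ^ 2 := mul_nonneg (sub_nonneg.2 hτ) (by positivity)
  have hd2 : 0 ≤ (v1 - v2) * p ^ 3 := mul_nonneg (sub_nonneg.2 hv12) (by positivity)
  have x1 : (τ2 - τ1) * p ^ 2 = τ2 * p ^ 2 - τ1 * p ^ 2 := by ring
  have x2 : (v1 - v2) * p ^ 3 = v1 * p ^ 3 - v2 * p ^ 3 := by ring
  refine ⟨fun hU => ?_, by linarith, hpos⟩
  have hUp : 1 / U ≤ p := one_div_le_one_div_of_le hq2 hU
  have u2 : 1 / U ^ 2 ≤ p ^ 2 := by
    have := pow_le_pow_left₀ (by positivity : (0:ℝ) ≤ 1 / U) hUp 2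
    rwa [one_div_pow] at this
  have u3 : 1 / U ^ 3 ≤ p ^ 3 := by
    have := pow_le_pow_left₀ (by positivity : (0:ℝ) ≤ 1 / U) hUp 3
    rwa [one_div_pow] at this
  have d1 : (τ2 - τ1) / U ^ 2 ≤ (τ2 - τ1) * p ^ 2 := by
    have := mul_le_mul_of_nonneg_left u2 (sub_nonneg.2 hτ)
    calc (τ2 - τ1) / U ^ 2 = (τ2 - τ1) * (1 / U ^ 2) := by ring
      _ ≤ _ := this
  have d2 : (v1 - v2) / U ^ 3 ≤ (v1 - v2) * p ^ 3 := by
    have := mul_le_mul_of_nonneg_left u3 (sub_nonneg.2 hv12)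
    calc (v1 - v2) / U ^ 3 = (v1 - v2) * (1 / U ^ 3) := by ring
      _ ≤ _ := this
  linarith

/-- the pointwise inequality behind `br2`. -/
lemma br_pt {a τ1 τ2 v1 v2 L ξ U g q1 q2 : ℝ} (ha : 0 ≤ a) (hv2 : 0 ≤ v2) (hL : 0 < L)
    (hU0 : 0 < U) (hξ0 : 0 ≤ ξ) (hξ : ξ ≤ 1 / 2) (hτ : τ1 ≤ τ2) (hv12 : v2 ≤ v1)
    (hreg : 2 * max (-τ1) 0 * ((1 - ξ) * L) + 3 * v1 ≤ a * ((1 - ξ) * L) ^ 2) (hg : 0 ≤ g)
    (hgap : g ≤ (τ2 - τ1) / U ^ 2 + (v1 - v2) / U ^ 3 - 2 * a * ξ / L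
      - 6 * ξ * max τ1 0 / L ^ 2) :
    w1f L q1 q2 * (a * q1 ^ 2 + τ1 * q1 - v1) + g * (if 2 * L ≤ q2 then 1 else 0) ≤
      w2f L q2 * (a * q2 ^ 2 + τ2 * q2 - v2) +
        (4 * a / L + 16 * max τ1 0 / L ^ 2 + g) *
          (if L ≤ q2 ∧ q1 < (1 - ξ) * q2 then 1 else 0) +
        (g + (2 * a * ξ / L + 6 * ξ * max τ1 0 / L ^ 2)) * (if U < q2 then 1 else 0) := by
  have hT0 : 0 ≤ max τ1 0 := le_max_right _ _
  have hL2 : L < 2 * L := by linarith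
  have hv1 : 0 ≤ v1 := hv2.trans hv12
  have hδ : 0 ≤ 2 * a * ξ / L + 6 * ξ * max τ1 0 / L ^ 2 := by positivity
  have c1 : 0 ≤ 4 * a / L + 16 * max τ1 0 / L ^ 2 + g := by positivity
  have c2 : 0 ≤ g + (2 * a * ξ / L + 6 * ξ * max τ1 0 / L ^ 2) := by positivity
  set δ := 2 * a * ξ / L + 6 * ξ * max τ1 0 / L ^ 2 with hδd
  have i1 : (0:ℝ) ≤ (if L ≤ q2 ∧ q1 < (1 - ξ) * q2 then 1 else 0) := by split_ifs <;> norm_num
  have i2 : (0:ℝ) ≤ (if U < q2 then 1 else 0) := by split_ifs <;> norm_num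
  rcases le_or_gt q2 L with h2 | h2
  · have e1 : w1f L q1 q2 = 0 := by unfold w1f; rw [rmp_zero hL2 h2, zero_mul]
    have e2 : w2f L q2 = 0 := cw_zero hL2 h2
    rw [e1, e2, if_neg (by linarith : ¬ 2 * L ≤ q2)]
    have := mul_nonneg c1 i1
    have := mul_nonneg c2 i2
    linarith
  have hq2 : 0 < q2 := by linarith
  have eX : w2f L q2 * (a * q2 ^ 2 + τ2 * q2 - v2) =
      rmp L (2 * L) q2 * (a * (1 / q2) + τ2 * (1 / q2) ^ 2 - v2 * (1 / q2) ^ 3) := by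
    unfold w2f cw
    field_simp
  have hX0 : 0 ≤ rmp L (2 * L) q2 := rmp_nonneg _ _ _
  have hX1 : rmp L (2 * L) q2 ≤ 1 := rmp_le_one _ _ _
  have hind : (if 2 * L ≤ q2 then (1:ℝ) else 0) ≤ 1 := by split_ifs <;> norm_num
  have h3 : g * (if 2 * L ≤ q2 then 1 else 0) ≤ g * 1 := mul_le_mul_of_nonneg_left hind hg
  rw [eX]
  by_cases hbad : q1 < (1 - ξ) * q2
  · rw [if_pos (show L ≤ q2 ∧ q1 < (1 - ξ) * q2 from ⟨h2.le, hbad⟩)]
    have key := bad_le (τ := τ1) (q1 := q1) (q2 := q2) ha hv1 hL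
    obtain ⟨-, -, hH2⟩ := good_le (q1 := (1 - ξ) * q2) ha hv2 hL hU0 hξ0 hξ hτ hv12 hreg hgap h2
      le_rfl
    have h4 := mul_nonneg hX0 hH2
    have h5 := mul_nonneg c2 i2
    linarith
  · rw [if_neg (show ¬ (L ≤ q2 ∧ q1 < (1 - ξ) * q2) from fun h => hbad h.2)]
    have hgood : (1 - ξ) * q2 ≤ q1 := not_lt.1 hbad
    obtain ⟨fin1, fin2, -⟩ := good_le (q1 := q1) ha hv2 hL hU0 hξ0 hξ hτ hv12 hreg hgap h2 hgood
    have hq1 : 0 < q1 := lt_of_lt_of_le (mul_pos (by linarith) hq2) hgood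
    have hZ : rmp (L / 4) (L / 2) q1 = 1 := by
      refine rmp_one (by linarith) ?_
      have h6 : (1 - ξ) * L ≤ (1 - ξ) * q2 := mul_le_mul_of_nonneg_left h2.le (by linarith)
      have h7 : 1 / 2 * L ≤ (1 - ξ) * L := mul_le_mul_of_nonneg_right (by linarith) hL.le
      linarith
    have e : w1f L q1 q2 * (a * q1 ^ 2 + τ1 * q1 - v1) =
        rmp L (2 * L) q2 * (a * (1 / q1) + τ1 * (1 / q1) ^ 2 - v1 * (1 / q1) ^ 3) := by
      unfold w1f cw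
      rw [hZ]
      field_simp
    rw [e]
    rcases le_or_gt q2 U with hU | hU
    · rw [if_neg (not_lt.2 hU)]
      have fin := fin1 hU
      by_cases h2L : 2 * L ≤ q2
      · rw [if_pos h2L, rmp_one hL2 h2L]
        linarith
      · rw [if_neg h2L]
        have := mul_le_mul_of_nonneg_left
          (by linarith : a * (1 / q1) + τ1 * (1 / q1) ^ 2 - v1 * (1 / q1) ^ 3 ≤
            a * (1 / q2) + τ2 * (1 / q2) ^ 2 - v2 * (1 / q2) ^ 3) hX0
        linarith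
    · rw [if_pos hU]
      have h5 := mul_le_mul_of_nonneg_left fin2 hX0
      have h6 : rmp L (2 * L) q2 * δ ≤ 1 * δ := mul_le_mul_of_nonneg_right hX1 hδ
      rw [mul_add] at h5
      linarith

/-! ### the theorem -/

variable {κ : Type*} [Fintype κ] [DecidableEq κ] {μ : κ → Measure ℝ}
  [∀ e, IsProbabilityMeasure (μ e)] {w : (κ → ℝ) → ℝ} {K1 K2 : Finset κ}

lemma bm_w2f {Q : (κ → ℝ) → ℝ} {L : ℝ} (hL : 0 < L) (hQ : BM Q) : BM (fun z => w2f L (Q z)) :=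
  ⟨(meas_cw L (2 * L)).comp hQ.meas, 1 / L ^ 3, fun z => by
    rw [abs_of_nonneg (w2f_nonneg hL _)]; exact w2f_le hL _⟩

lemma bm_rmp {Q : (κ → ℝ) → ℝ} (s t : ℝ) (hQ : BM Q) : BM (fun z => rmp s t (Q z)) :=
  ⟨(meas_rmp s t).comp hQ.meas, 1, fun z => by
    rw [abs_of_nonneg (rmp_nonneg _ _ _)]; exact rmp_le_one _ _ _⟩

lemma bm_w1f {Q1 Q2 : (κ → ℝ) → ℝ} {L : ℝ} (hL : 0 < L) (hQ1 : BM Q1) (hQ2 : BM Q2) :
    BM (fun z => w1f L (Q1 z) (Q2 z)) :=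
  ⟨((meas_rmp L (2 * L)).comp hQ2.meas).mul ((meas_cw (L / 4) (L / 2)).comp hQ1.meas),
    64 / L ^ 3, fun z => by rw [abs_of_nonneg (w1f_nonneg hL _ _)]; exact w1f_le hL _ _⟩

/-- **Exclusion of the big root, weights not seeing the cumulant.** `k_i` = conditional mean of one
bounded function given the coordinates in `K_i`, `K2 ⊆ K1`, `Q2` depends on `K2`. -/
theorem br2 (hw : Wt μ w) (hK : K2 ⊆ K1) {ψ Q1 Q2 : (κ → ℝ) → ℝ}
    {a τ1 τ2 v1 v2 L ξ U C g p1 p2 e1 e2 : ℝ}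
    (ha : 0 ≤ a) (hv2 : 0 ≤ v2) (hL : 0 < L) (hU0 : 0 < U) (hξ0 : 0 ≤ ξ) (hξ : ξ ≤ 1 / 2)
    (hτ : τ1 ≤ τ2) (hv12 : v2 ≤ v1)
    (hreg : 2 * max (-τ1) 0 * ((1 - ξ) * L) + 3 * v1 ≤ a * ((1 - ξ) * L) ^ 2)
    (hg : 0 < g)
    (hgap : g ≤ (τ2 - τ1) / U ^ 2 + (v1 - v2) / U ^ 3 - 2 * a * ξ / L
      - 6 * ξ * max τ1 0 / L ^ 2)
    (hψ : BM ψ) (hψC : ∀ z, |ψ z| ≤ C) (hQ1 : BM Q1) (hQ2 : BM Q2) (hQ2d : Dep K2 Q2)
    (h12 : ex μ w ({z | L ≤ Q2 z ∧ Q1 z < (1 - ξ) * Q2 z}.indicator 1) ≤ p1)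
    (hU : ex μ w (ind U Q2) ≤ p2)
    (hE1 : ex μ w (fun z => w1f L (Q1 z) (Q2 z) *
      (cx μ K1 w ψ z ^ 2 * Q1 z ^ 3 - a * Q1 z ^ 2 - τ1 * Q1 z + v1)) ≤ e1)
    (hE2 : -e2 ≤ ex μ w (fun z => w2f L (Q2 z) *
      (cx μ K2 w ψ z ^ 2 * Q2 z ^ 3 - a * Q2 z ^ 2 - τ2 * Q2 z + v2))) :
    ex μ w ({z | 2 * L ≤ Q2 z}.indicator 1) ≤
      (e1 + e2 + (C ^ 2 + 4 * a / L + 16 * max τ1 0 / L ^ 2 + g) * p1 +
        (g + (2 * a * ξ / L + 6 * ξ * max τ1 0 / L ^ 2)) * p2) / g := by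
  have hL2 : L < 2 * L := by linarith
  have hv1 : 0 ≤ v1 := hv2.trans hv12
  have hT0 : 0 ≤ max τ1 0 := le_max_right _ _
  set k1 := cx μ K1 w ψ with hk1
  set k2 := cx μ K2 w ψ with hk2
  have b1 : BM k1 := hw.bm_cx K1 hψ
  have b2 : BM k2 := hw.bm_cx K2 hψ
  have bk1 : ∀ z, |k1 z| ≤ C := fun z => hw.abs_cx_le K1 hψ hψC z
  have mB : MeasurableSet {z | 2 * L ≤ Q2 z} := measurableSet_le measurable_const hQ2.meas
  have mU : MeasurableSet {z | U < Q2 z} := measurableSet_lt measurable_const hQ2.meas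
  have m12 : MeasurableSet {z | L ≤ Q2 z ∧ Q1 z < (1 - ξ) * Q2 z} :=
    (measurableSet_le measurable_const hQ2.meas).inter
      (measurableSet_lt hQ1.meas (hQ2.meas.const_mul _))
  -- the functions
  set χ : (κ → ℝ) → ℝ := fun z => rmp L (2 * L) (Q2 z) with hχ
  set ζ : (κ → ℝ) → ℝ := fun z => rmp (L / 4) (L / 2) (Q1 z) with hζ
  have bχ : BM χ := bm_rmp _ _ hQ2
  have bζ : BM ζ := bm_rmp _ _ hQ1
  have χ0 : ∀ z, 0 ≤ χ z := fun z => rmp_nonneg _ _ _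
  have dχ : Dep K2 χ := fun z z' => by
    show rmp L (2 * L) (Q2 (glue K2 z z')) = rmp L (2 * L) (Q2 z)
    rw [hQ2d z z']
  set H1 : (κ → ℝ) → ℝ := fun z => w1f L (Q1 z) (Q2 z) * (a * Q1 z ^ 2 + τ1 * Q1 z - v1) with hH1
  set H2 : (κ → ℝ) → ℝ := fun z => w2f L (Q2 z) * (a * Q2 z ^ 2 + τ2 * Q2 z - v2) with hH2
  have bH1 : BM H1 :=
    (bm_w1f hL hQ1 hQ2).mul (((bcm a (bsq hQ1)).add (bcm τ1 hQ1)).sub (BM.const v1))
  have bH2 : BM H2 :=
    (bm_w2f hL hQ2).mul (((bcm a (bsq hQ2)).add (bcm τ2 hQ2)).sub (BM.const v2))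
  have bA1 : BM (fun z => (χ z * ζ z) * k1 z ^ 2) := (bχ.mul bζ).mul (bsq b1)
  have bA2 : BM (fun z => χ z * k2 z ^ 2) := bχ.mul (bsq b2)
  have bA3 : BM (fun z => χ z * k1 z ^ 2) := bχ.mul (bsq b1)
  -- the equations
  have E1 : ex μ w (fun z => (χ z * ζ z) * k1 z ^ 2) - ex μ w H1 ≤ e1 := by
    rw [← ex_sub hw bA1 bH1]
    refine le_trans (le_of_eq ?_) hE1
    congr 1
    funext z
    have h := cw_mul (q := Q1 z) (by linarith : 0 < L / 4) (by linarith : L / 4 < L / 2)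
    show rmp L (2 * L) (Q2 z) * rmp (L / 4) (L / 2) (Q1 z) * k1 z ^ 2 -
      w1f L (Q1 z) (Q2 z) * (a * Q1 z ^ 2 + τ1 * Q1 z - v1) = _
    rw [← h]
    unfold w1f
    ring
  have E2 : -e2 ≤ ex μ w (fun z => χ z * k2 z ^ 2) - ex μ w H2 := by
    rw [← ex_sub hw bA2 bH2]
    refine le_trans hE2 (le_of_eq ?_)
    congr 1
    funext z
    have h := cw_mul (q := Q2 z) hL hL2
    show _ = rmp L (2 * L) (Q2 z) * k2 z ^ 2 - w2f L (Q2 z) * (a * Q2 z ^ 2 + τ2 * Q2 z - v2)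
    rw [← h]
    unfold w2f
    ring
  have E3 : ex μ w (fun z => χ z * k2 z ^ 2) ≤ ex μ w (fun z => χ z * k1 z ^ 2) :=
    ex_mul_cx_sq_mono hw hK dχ bχ χ0 hψ
  have bI12 := bm_indicator (κ := κ) m12
  have bIU := bm_indicator (κ := κ) mU
  have bIB := bm_indicator (κ := κ) mB
  have E4 : ex μ w (fun z => χ z * k1 z ^ 2) ≤ ex μ w (fun z => (χ z * ζ z) * k1 z ^ 2) +
      C ^ 2 * p1 := by
    have h1 : ex μ w (fun z => χ z * k1 z ^ 2) ≤ ex μ w (fun z => (χ z * ζ z) * k1 z ^ 2 +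
        C ^ 2 * ({z | L ≤ Q2 z ∧ Q1 z < (1 - ξ) * Q2 z}.indicator 1 : (κ → ℝ) → ℝ) z) := by
      refine ex_mono hw bA3 (bA1.add (bcm _ bI12)) fun z => ?_
      have hk : k1 z ^ 2 ≤ C ^ 2 := by
        rw [← sq_abs]; exact pow_le_pow_left₀ (abs_nonneg _) (bk1 z) 2
      have z0 : 0 ≤ ζ z := rmp_nonneg _ _ _
      have z1 : ζ z ≤ 1 := rmp_le_one _ _ _
      have x1 : χ z ≤ 1 := rmp_le_one _ _ _
      have x0 := χ0 z
      by_cases hz : z ∈ {z | L ≤ Q2 z ∧ Q1 z < (1 - ξ) * Q2 z}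
      · rw [Set.indicator_of_mem hz]
        show χ z * k1 z ^ 2 ≤ χ z * ζ z * k1 z ^ 2 + C ^ 2 * 1
        have h2 : χ z * k1 z ^ 2 ≤ 1 * C ^ 2 := mul_le_mul x1 hk (sq_nonneg _) zero_le_one
        have h3 : 0 ≤ χ z * ζ z * k1 z ^ 2 := mul_nonneg (mul_nonneg x0 z0) (sq_nonneg _)
        linarith
      · rw [Set.indicator_of_notMem hz, mul_zero, add_zero]
        rcases le_or_gt (Q2 z) L with h2 | h2
        · have : χ z = 0 := rmp_zero hL2 h2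
          rw [this, zero_mul, zero_mul, zero_mul]
        · have h3 : (1 - ξ) * Q2 z ≤ Q1 z := by
            by_contra hcon
            exact hz ⟨h2.le, not_le.1 hcon⟩
          have h4 : ζ z = 1 := by
            refine rmp_one (by linarith) ?_
            have h6 : (1 - ξ) * L ≤ (1 - ξ) * Q2 z :=
              mul_le_mul_of_nonneg_left h2.le (by linarith)
            have h7 : 1 / 2 * L ≤ (1 - ξ) * L := mul_le_mul_of_nonneg_right (by linarith) hL.le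
            linarith
          rw [h4, mul_one]
    refine h1.trans ?_
    rw [ex_add hw bA1 (bcm _ bI12), ex_cmul]
    have := mul_le_mul_of_nonneg_left h12 (sq_nonneg C)
    linarith
  -- the pointwise inequality
  have E5 : ex μ w H1 + g * ex μ w ({z | 2 * L ≤ Q2 z}.indicator 1) ≤ ex μ w H2 +
      (4 * a / L + 16 * max τ1 0 / L ^ 2 + g) * p1 +
        (g + (2 * a * ξ / L + 6 * ξ * max τ1 0 / L ^ 2)) * p2 := by
    have h1 : ex μ w (fun z => H1 z +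
        g * ({z | 2 * L ≤ Q2 z}.indicator 1 : (κ → ℝ) → ℝ) z) ≤
        ex μ w (fun z => (H2 z + (4 * a / L + 16 * max τ1 0 / L ^ 2 + g) *
          ({z | L ≤ Q2 z ∧ Q1 z < (1 - ξ) * Q2 z}.indicator 1 : (κ → ℝ) → ℝ) z) +
          (g + (2 * a * ξ / L + 6 * ξ * max τ1 0 / L ^ 2)) *
          ({z | U < Q2 z}.indicator 1 : (κ → ℝ) → ℝ) z) := by
      refine ex_mono hw (bH1.add (bcm _ bIB)) ((bH2.add (bcm _ bI12)).add (bcm _ bIU))
        fun z => ?_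
      have h := br_pt (q1 := Q1 z) (q2 := Q2 z) ha hv2 hL hU0 hξ0 hξ hτ hv12 hreg hg.le hgap
      have i1 : ({z | 2 * L ≤ Q2 z}.indicator 1 : (κ → ℝ) → ℝ) z =
          if 2 * L ≤ Q2 z then 1 else 0 := by
        simp only [Set.indicator_apply, Set.mem_ofPred_eq, Pi.one_apply]
      have i2 : ({z | L ≤ Q2 z ∧ Q1 z < (1 - ξ) * Q2 z}.indicator 1 : (κ → ℝ) → ℝ) z =
          if L ≤ Q2 z ∧ Q1 z < (1 - ξ) * Q2 z then 1 else 0 := by
        simp only [Set.indicator_apply, Set.mem_ofPred_eq, Pi.one_apply]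
      have i3 : ({z | U < Q2 z}.indicator 1 : (κ → ℝ) → ℝ) z = if U < Q2 z then 1 else 0 := by
        simp only [Set.indicator_apply, Set.mem_ofPred_eq, Pi.one_apply]
      rw [i1, i2, i3]
      exact h
    rw [ex_add hw bH1 (bcm _ bIB), ex_add hw (bH2.add (bcm _ bI12)) (bcm _ bIU),
      ex_add hw bH2 (bcm _ bI12), ex_cmul, ex_cmul, ex_cmul] at h1
    have hU' : ex μ w ({z | U < Q2 z}.indicator 1) ≤ p2 := by
      have e : ({z | U < Q2 z}.indicator (1 : (κ → ℝ) → ℝ)) = ind U Q2 := by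
        funext z
        unfold ind
        by_cases hz : U < Q2 z
        · rw [Set.indicator_of_mem (show z ∈ {z | U < Q2 z} from hz), if_pos hz]; rfl
        · rw [Set.indicator_of_notMem (show z ∉ {z | U < Q2 z} from hz), if_neg hz]
      rw [e]; exact hU
    have c1 : 0 ≤ 4 * a / L + 16 * max τ1 0 / L ^ 2 + g := by positivity
    have c2 : 0 ≤ g + (2 * a * ξ / L + 6 * ξ * max τ1 0 / L ^ 2) := by positivity
    have h3 := mul_le_mul_of_nonneg_left h12 c1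
    have h4 := mul_le_mul_of_nonneg_left hU' c2
    linarith
  rw [le_div_iff₀ hg]
  have e : (C ^ 2 + 4 * a / L + 16 * max τ1 0 / L ^ 2 + g) * p1 =
      C ^ 2 * p1 + (4 * a / L + 16 * max τ1 0 / L ^ 2 + g) * p1 := by ring
  rw [e]
  linarith

end Vale.Agent.P146.H578
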